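import Vale.Agent.P181.RG.H467.DesB
import Vale.Agent.P181.RG.H221.DesA
import Vale.Agent.P181.RG.H460.Ext
import Vale.Agent.P181.RG.H460.Peak

set_option autoImplicit false

/-!
# P181, RG: [DES]
-/

namespace Vale.Agent.P181.RG.H467

/-- **[DES]** -/
theorem des (hE : ExtRG) (hP : PeakRG) : DesRG :=
  fun u m D R k f₀ F₀ T s e hm hu hs _ hR he hei hF hb h4 h8 hg hT =>
    desB hE hP u m D R k f₀ T s e hm hu h4 h8 hg hT
      (H221.desA hE u m D R k f₀ F₀ T s e hm hu hs hR he hei hF hb)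

theorem desRG : DesRG := des H460.ext H460.peak

end Vale.Agent.P181.RG.H467
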