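import Vale.Agent.P181.RG.H467.Pat

set_option autoImplicit false

/-!
# P181, RG: [DES-b], the class letters by [EXT] and [PEAK]
-/

namespace Vale.Agent.P181.RG.H467

open Finset Function Vale.Agent.P181.RG

/-- A partial assignment on a set of slots extends to exact multiplicities. -/
theorem row (hE : ExtRG) {C L P : Type} [Fintype C] [Fintype L] [Fintype P] [DecidableEq C]
    [DecidableEq L] (A : Finset C) (ε : P → C) (hε : Injective ε) (hA : ∀ p, ε p ∈ A)
    (cd : P → L) (l₀ : L) (c : L → ℕ) (hc : ∑ x, c x = A.card)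
    (hle : ∀ x, (univ.filter fun p => cd p = x).card ≤ c x) :
    ∃ g : C → L, (∀ p, g (ε p) = cd p) ∧ ∀ x, (A.filter fun s => g s = x).card = c x := by
  classical
  let ε' : P → {s // s ∈ A} := fun p => ⟨ε p, hA p⟩
  have hε' : Injective ε' := fun a b h => hε (congrArg Subtype.val h)
  have h1 : ∀ x, ((univ.image ε').filter fun s => extend ε' cd (fun _ => l₀) s = x).card ≤ c x := by
    intro x
    have h2 : ((univ.image ε').filter fun s => extend ε' cd (fun _ => l₀) s = x) =
        (univ.filter fun p => cd p = x).image ε' := by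
      ext s
      simp only [mem_filter, mem_image, mem_univ, true_and]
      constructor
      · rintro ⟨⟨p, rfl⟩, h⟩
        rw [hε'.extend_apply] at h
        exact ⟨p, h, rfl⟩
      · rintro ⟨p, h, rfl⟩
        refine ⟨⟨p, rfl⟩, ?_⟩
        rw [hε'.extend_apply]
        exact h
    rw [h2, card_image_of_injective _ hε']
    exact hle x
  obtain ⟨g, hg, hg'⟩ := hE {s // s ∈ A} L c (univ.image ε') (extend ε' cd (fun _ => l₀))
    (by rw [hc, Fintype.card_coe]) h1
  refine ⟨fun s => if h : s ∈ A then g ⟨s, h⟩ else l₀, fun p => ?_, fun x => ?_⟩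
  · change (if h : ε p ∈ A then g ⟨ε p, h⟩ else l₀) = cd p
    rw [dif_pos (hA p), hg ⟨ε p, hA p⟩ (mem_image.2 ⟨p, mem_univ _, rfl⟩)]
    exact hε'.extend_apply cd _ p
  · rw [← hg' x, ← card_map (Embedding.subtype fun s => s ∈ A)]
    congr 1
    ext s
    simp only [mem_filter, mem_map, mem_univ, true_and, Embedding.coe_subtype]
    constructor
    · rintro ⟨hs, h⟩
      rw [dif_pos hs] at h
      exact ⟨⟨s, hs⟩, h, rfl⟩
    · rintro ⟨⟨s', hs'⟩, h, rfl⟩
      refine ⟨hs', ?_⟩
      rw [dif_pos hs']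
      exact h

/-- The code of the letter at a thin column. -/
def cA (T u : ℕ) (p : Fin u × Fin T) : ℕ := p.1 * T + p.2

/-- The code of the letter at a column without free letters. -/
def cB {m f₀ : ℕ} (r : Fin m) (q : Fin m × Fin f₀ × Fin f₀) : ℕ :=
  if q.1 = r then q.2.1 else q.2.2

lemma cA_lt {T u : ℕ} (p : Fin u × Fin T) : cA T u p < u * T := by
  have h1 : ((p.1 : ℕ) + 1) * T ≤ u * T := Nat.mul_le_mul_right T p.1.2
  have h2 := p.2.2
  unfold cA
  rw [Nat.succ_mul] at h1
  omega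

lemma cA_inj {T u : ℕ} : Injective (cA T u) := by
  rintro ⟨i, t⟩ ⟨i', t'⟩ h
  have hT : 0 < T := lt_of_le_of_lt (Nat.zero_le _) t.2
  have h1 : ((i : ℕ) * T + t) / T = i := by
    rw [mul_comm, Nat.mul_add_div hT, Nat.div_eq_of_lt t.2, add_zero]
  have h1' : ((i' : ℕ) * T + t') / T = i' := by
    rw [mul_comm, Nat.mul_add_div hT, Nat.div_eq_of_lt t'.2, add_zero]
  have h2 : (i : ℕ) * T + t = i' * T + t' := h
  have h3 : (i : ℕ) = i' := by rw [← h1, ← h1', h2]
  have h4 : (t : ℕ) = t' := by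
    rw [h3] at h2
    omega
  exact Prod.ext (Fin.ext h3) (Fin.ext h4)

lemma card_cA {T u f : ℕ} (x : ℕ) :
    (univ.filter fun p : Fin u × Fin T => cA T u p % f = x).card ≤ u * T / f + 1 := by
  rw [← card_range (u * T / f + 1)]
  refine card_le_card_of_injOn (fun p => cA T u p / f) ?_ ?_
  · intro p _
    rw [coe_range, Set.mem_Iio, Nat.lt_succ_iff]
    exact Nat.div_le_div_right (le_of_lt (cA_lt p))
  · intro p hp q hq h
    rw [coe_filter, Set.mem_ofPred_eq] at hp hq
    apply cA_inj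
    have h1 := Nat.div_add_mod (cA T u p) f
    have h2 := Nat.div_add_mod (cA T u q) f
    have h3 : cA T u p / f = cA T u q / f := h
    rw [← h1, ← h2, h3, hp.2, hq.2]

lemma card_cB {m f₀ f : ℕ} (r : Fin m) (hf : 0 < f) (hf2 : f₀ ≤ 2 * f) (x : ℕ) :
    (univ.filter fun q : Fin m × Fin f₀ × Fin f₀ => cB r q % f = x).card ≤ 2 * (m * f₀) := by
  have hc : (univ : Finset (Fin m × Fin f₀ × Fin 2)).card = 2 * (m * f₀) := by
    rw [card_univ, Fintype.card_prod, Fintype.card_prod, Fintype.card_fin, Fintype.card_fin,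
      Fintype.card_fin]
    ring
  have hlt : ∀ q : Fin m × Fin f₀ × Fin f₀, cB r q / f < 2 := by
    intro q
    rw [Nat.div_lt_iff_lt_mul hf]
    have h1 := q.2.1.2
    have h2 := q.2.2.2
    unfold cB
    split_ifs <;> omega
  rw [← hc]
  refine card_le_card_of_injOn
    (fun q => (q.1, (if q.1 = r then q.2.2 else q.2.1), ⟨cB r q / f, hlt q⟩)) ?_ ?_
  · intro q _
    exact mem_coe.2 (mem_univ _)
  · rintro ⟨a, b, c⟩ hp ⟨a', b', c'⟩ hq h
    rw [coe_filter, Set.mem_ofPred_eq] at hp hq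
    simp only [Prod.mk.injEq, Fin.mk.injEq] at h
    obtain ⟨h1, h2, h3⟩ := h
    subst h1
    have e1 := Nat.div_add_mod (cB r (a, b, c)) f
    have e2 := Nat.div_add_mod (cB r (a, b', c')) f
    have h4 : cB r (a, b, c) = cB r (a, b', c') := by rw [← e1, ← e2, h3, hp.2, hq.2]
    by_cases ha : a = r
    · subst ha
      simp only [if_true] at h2
      simp only [cB, if_true] at h4
      exact Prod.ext rfl (Prod.ext (Fin.ext h4) h2)
    · simp only [if_neg ha] at h2
      simp only [cB, if_neg ha] at h4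
      exact Prod.ext rfl (Prod.ext h2 (Fin.ext h4))

lemma al_lt (D l s : ℕ) : al D l s < 3 := by
  unfold al
  split_ifs <;> omega

/-- **[DES-b]** -/
theorem desB (hE : ExtRG) (hP : PeakRG) (u m D R k f₀ T s : ℕ) (e : Fin u → ℕ) (hm : 3 ≤ m)
    (hu : 1 ≤ u) (h4 : 4 * (u * T) ≤ (f₀ - m) * k) (h8 : 8 * (m * f₀) + 4 ≤ k)
    (hgT : u / s + 1 + m ≤ T) (hT : T + m ≤ f₀) (hpat : Pat u m D R k f₀ T s e) :
    RDes u m D R k (fun r => f₀ - r) e := by
  classical
  obtain ⟨fr, hthin, hcnt, hnone, hpair, ⟨γ0, hγ0, hf0⟩, ⟨γ1, hγ1, hf1⟩, γ2, hγ2, hf2⟩ := hpat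
  have hfpos : ∀ r : Fin m, 0 < f₀ - (r : ℕ) := fun r => by
    have := r.2
    omega
  have hmT : 2 * m ≤ f₀ := by
    have h0 : m ≤ T := le_trans (Nat.le_add_left m _) hgT
    omega
  let own : Equiv.Perm (Fin u) → Fin m → (Fin u × Fin (2 * D)) ⊕ Fin R → Prop := fun τ r c =>
    Sum.elim (fun p : Fin u × Fin (2 * D) => (r : ℕ) ≠ al D (τ p.1) p.2)
      (fun c => fr c r = none) c
  have hA : ∀ τ r, (univ.filter (own τ r)).card = (f₀ - (r : ℕ)) * k := by
    intro τ r
    rw [← hnone τ r, card_filter, card_filter, card_filter, Fintype.sum_sum_type]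
    exact congrArg₂ (· + ·) (sum_congr rfl fun p _ => if_congr Iff.rfl rfl rfl)
      (sum_congr rfl fun c _ => if_congr Iff.rfl rfl rfl)
  let δ : Fin m → Fin u × Fin T → Fin R := fun r => if (r : ℕ) = 0 then γ1 else γ0
  have hδ : ∀ r, Injective (δ r) := by
    intro r
    by_cases h : (r : ℕ) = 0
    · simp only [δ, if_pos h]
      exact hγ1
    · simp only [δ, if_neg h]
      exact hγ0
  have hδn : ∀ r p, fr (δ r p) r = none := by
    intro r p
    by_cases h : (r : ℕ) = 0
    · simp only [δ, if_pos h]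
      rw [hf1, if_neg (by omega)]
    · simp only [δ, if_neg h]
      rw [hf0, if_neg h]
  let r0 : Fin m := ⟨0, by omega⟩
  let r1 : Fin m := ⟨1, by omega⟩
  -- the other row of the thin column
  let ro : Fin m → Fin m := fun r => if (r : ℕ) = 0 then r1 else r0
  have hro : ∀ r, ro r ≠ r := by
    intro r h
    by_cases hr : (r : ℕ) = 0
    · simp only [ro, if_pos hr] at h
      have := congrArg Fin.val h
      simp only [r1] at this
      omega
    · simp only [ro, if_neg hr] at h
      have := congrArg Fin.val h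
      simp only [r0] at this
      omega
  have hδs : ∀ r p, fr (δ r p) (ro r) = some p.1 := by
    intro r p
    by_cases h : (r : ℕ) = 0
    · simp only [δ, ro, if_pos h]
      rw [hf1, if_pos rfl]
    · simp only [δ, ro, if_neg h]
      rw [hf0, if_pos rfl]
  let ε : Fin m → (Fin u × Fin T) ⊕ (Fin m × Fin f₀ × Fin f₀) →
      (Fin u × Fin (2 * D)) ⊕ Fin R := fun r p => Sum.inr (Sum.elim (δ r) γ2 p)
  have hε : ∀ r, Injective (ε r) := by
    intro r
    have h1 : Injective (Sum.elim (δ r) γ2) := by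
      refine (hδ r).sumElim hγ2 fun p q h => ?_
      have h2 := hδs r p
      rw [h, hf2] at h2
      cases h2
    exact Sum.inr_injective.comp h1
  have hεA : ∀ τ r p, ε r p ∈ univ.filter (own τ r) := by
    intro τ r p
    rw [mem_filter]
    refine ⟨mem_univ _, ?_⟩
    rcases p with p | q
    · exact hδn r p
    · exact hf2 q r
  let cd : (r : Fin m) → (Fin u × Fin T) ⊕ (Fin m × Fin f₀ × Fin f₀) → Fin (f₀ - (r : ℕ)) :=
    fun r => Sum.elim (fun p => ⟨cA T u p % (f₀ - (r : ℕ)), Nat.mod_lt _ (hfpos r)⟩)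
      (fun q => ⟨cB r q % (f₀ - (r : ℕ)), Nat.mod_lt _ (hfpos r)⟩)
  have hcd : ∀ r x, (univ.filter fun p => cd r p = x).card ≤ k := by
    intro r x
    rw [card_filter, Fintype.sum_sum_type, ← card_filter, ← card_filter]
    have h1 : (univ.filter fun p : Fin u × Fin T => cd r (Sum.inl p) = x) =
        univ.filter fun p : Fin u × Fin T => cA T u p % (f₀ - (r : ℕ)) = x := by
      ext p
      rw [mem_filter, mem_filter]
      exact and_congr Iff.rfl Fin.ext_iff
    have h2 : (univ.filter fun q : Fin m × Fin f₀ × Fin f₀ => cd r (Sum.inr q) = x) =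
        univ.filter fun q : Fin m × Fin f₀ × Fin f₀ => cB r q % (f₀ - (r : ℕ)) = x := by
      ext p
      rw [mem_filter, mem_filter]
      exact and_congr Iff.rfl Fin.ext_iff
    rw [h1, h2]
    have h3 := card_cA (T := T) (u := u) (f := f₀ - (r : ℕ)) x
    have h5 := card_cB (f₀ := f₀) (f := f₀ - (r : ℕ)) r (hfpos r)
      (by have := r.2; omega) x
    have h6 : 4 * (u * T / (f₀ - (r : ℕ))) ≤ k := by
      have h7 : u * T / (f₀ - (r : ℕ)) * (f₀ - (r : ℕ)) ≤ u * T := Nat.div_mul_le_self _ _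
      have h9 : (f₀ - m) * k ≤ (f₀ - (r : ℕ)) * k :=
        Nat.mul_le_mul_right k (by have := r.2; omega)
      apply Nat.le_of_mul_le_mul_left (c := f₀ - (r : ℕ)) _ (hfpos r)
      calc (f₀ - (r : ℕ)) * (4 * (u * T / (f₀ - (r : ℕ))))
          = 4 * (u * T / (f₀ - (r : ℕ)) * (f₀ - (r : ℕ))) := by ring
        _ ≤ 4 * (u * T) := Nat.mul_le_mul_left 4 h7
        _ ≤ (f₀ - (r : ℕ)) * k := h4.trans h9
    omega
  have hrow : ∀ (τ : Equiv.Perm (Fin u)) (r : Fin m), ∃ g : (Fin u × Fin (2 * D)) ⊕ Fin R → Fin (f₀ - (r : ℕ)),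
      (∀ p, g (ε r p) = cd r p) ∧
        ∀ x, ((univ.filter (own τ r)).filter fun c => g c = x).card = k := by
    intro τ r
    refine row hE (univ.filter (own τ r)) (ε r) (hε r) (hεA τ r) (cd r) ⟨0, hfpos r⟩
      (fun _ => k) ?_ (hcd r)
    rw [hA, sum_const, card_univ, Fintype.card_fin, smul_eq_mul]
  choose g hg1 hg2 using hrow
  let fl : Fin m → (Fin u × Fin (2 * D)) ⊕ Fin R → Fin u := fun r c =>
    Sum.elim (fun p : Fin u × Fin (2 * D) => p.1) (fun c => (fr c r).getD ⟨0, hu⟩) c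
  let K : Equiv.Perm (Fin u) → (Fin u × Fin (2 * D)) ⊕ Fin R → Fin m →
      Lt u m (fun r => f₀ - (r : ℕ)) := fun τ c r =>
    if own τ r c then Sum.inr ⟨r, g τ r c⟩ else Sum.inl (fl r c)
  have hKo : ∀ τ c r, own τ r c → K τ c r = Sum.inr ⟨r, g τ r c⟩ := fun τ c r h => if_pos h
  have hKn : ∀ τ c r, ¬ own τ r c → K τ c r = Sum.inl (fl r c) := fun τ c r h => if_neg h
  have hKs : ∀ τ c r i, fr c r = some i → K τ (Sum.inr c) r = Sum.inl i := by
    intro τ c r i hi
    rw [hKn]
    · change Sum.inl ((fr c r).getD ⟨0, hu⟩) = _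
      rw [hi]
      rfl
    · intro h
      have h' : fr c r = none := h
      rw [hi] at h'
      cases h'
  have hKN : ∀ τ c r, fr c r = none → K τ (Sum.inr c) r = Sum.inr ⟨r, g τ r (Sum.inr c)⟩ :=
    fun τ c r h => hKo τ (Sum.inr c) r h
  refine ⟨fr, K, hthin, ?_, ?_, ?_, ?_, ?_⟩
  · intro τ i t r
    split_ifs with h
    · exact hKn τ (Sum.inl (i, t)) r (fun h' => h' h)
    · exact ⟨_, hKo τ (Sum.inl (i, t)) r h⟩
  · intro τ c r
    exact ⟨fun i hi => hKs τ c r i hi, fun h => ⟨_, hKN τ c r h⟩⟩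
  · intro τ i
    rw [Fintype.sum_sum_type, ← hcnt i]
    congr 1
    · have h1 : ∀ p : Fin u × Fin (2 * D), (univ.filter fun r => K τ (Sum.inl p) r =
          Sum.inl i).card = if p.1 = i then 1 else 0 := by
        intro p
        by_cases hp : p.1 = i
        · rw [if_pos hp, card_eq_one]
          refine ⟨⟨al D (τ p.1) p.2, lt_of_lt_of_le (al_lt _ _ _) hm⟩, ?_⟩
          ext r
          rw [mem_filter, mem_singleton]
          constructor
          · rintro ⟨_, h⟩
            by_cases ho : own τ r (Sum.inl p)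
            · rw [hKo _ _ _ ho] at h
              cases h
            · apply Fin.ext
              by_contra hne
              exact ho hne
          · intro h
            refine ⟨mem_univ _, ?_⟩
            rw [hKn]
            · exact congrArg Sum.inl hp
            · intro ho
              exact ho (congrArg Fin.val h)
        · rw [if_neg hp, card_eq_zero, filter_eq_empty_iff]
          intro r _ h
          by_cases ho : own τ r (Sum.inl p)
          · rw [hKo _ _ _ ho] at h
            cases h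
          · rw [hKn _ _ _ ho] at h
            exact hp (Sum.inl.inj h)
      rw [sum_congr rfl fun p _ => h1 p, Fintype.sum_prod_type, sum_eq_single i]
      · rw [sum_congr rfl fun y _ => if_pos rfl, sum_const, card_univ, Fintype.card_fin,
          smul_eq_mul, mul_one]
      · intro x _ hx
        exact sum_eq_zero fun y _ => if_neg hx
      · intro h
        exact absurd (mem_univ _) h
    · refine sum_congr rfl fun c _ => ?_
      congr 1
      ext r
      rw [mem_filter, mem_filter]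
      refine and_congr Iff.rfl ?_
      rcases hfr : fr c r with _ | j
      · rw [hKN τ c r hfr]
        constructor
        · intro h
          cases h
        · intro h
          cases h
      · rw [hKs τ c r j hfr]
        constructor
        · intro h
          rw [Sum.inl.inj h]
        · intro h
          rw [Option.some.inj h]
  · rintro τ ⟨r', j⟩
    rw [← hg2 τ r' j, filter_filter, card_filter]
    refine sum_congr rfl fun c _ => ?_
    have hiff : ∀ r, K τ c r = Sum.inr ⟨r', j⟩ ↔ r = r' ∧ (own τ r' c ∧ g τ r' c = j) := by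
      intro r
      constructor
      · intro h
        by_cases ho : own τ r c
        · rw [hKo _ _ _ ho] at h
          have h' := Sum.inr.inj h
          have hr : r = r' := congrArg Sigma.fst h'
          subst hr
          exact ⟨rfl, ho, eq_of_heq (Sigma.mk.inj h').2⟩
        · rw [hKn _ _ _ ho] at h
          cases h
      · rintro ⟨rfl, ho, hj⟩
        rw [hKo _ _ _ ho, hj]
    split_ifs with h
    · rw [card_eq_one]
      refine ⟨r', ?_⟩
      ext r
      rw [mem_filter, mem_singleton, hiff]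
      exact ⟨fun h' => h'.2.1, fun h' => ⟨mem_univ _, h', h⟩⟩
    · rw [card_eq_zero, filter_eq_empty_iff]
      intro r _ hr
      exact h ((hiff r).1 hr).2
  · intro τ σ hσ
    have hgrp : ∀ i : Fin u, (i : ℕ) / s < u / s + 1 := fun i =>
      Nat.lt_succ_of_le (Nat.div_le_div_right (le_of_lt i.2))
    refine hP u m f₀ T (u / s + 1) (fun i => ⟨(i : ℕ) / s, hgrp i⟩)
      (fun x y => ∃ c r r', r ≠ r' ∧ K τ c r = x ∧ K τ c r' = y) hgT hT ?_ ?_ ?_ ?_ σ ?_
    · rintro x y ⟨c, r, r', hr, hx, hy⟩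
      exact ⟨c, r', r, hr.symm, hy, hx⟩
    · rintro ⟨r, x⟩ ⟨r', y⟩ hne
      have hne' : r ≠ r' := hne
      have hx : (x : ℕ) < f₀ := by have := x.2; omega
      have hy : (y : ℕ) < f₀ := by have := y.2; omega
      refine ⟨Sum.inr (γ2 (r, ⟨x, hx⟩, ⟨y, hy⟩)), r, r', hne', ?_, ?_⟩
      · rw [hKN τ _ r (hf2 _ r)]
        have h1 : g τ r (Sum.inr (γ2 (r, ⟨x, hx⟩, ⟨y, hy⟩))) = x := by
          refine (hg1 τ r (Sum.inr (r, ⟨x, hx⟩, ⟨y, hy⟩))).trans ?_
          apply Fin.ext
          change cB r (r, (⟨x, hx⟩ : Fin f₀), (⟨y, hy⟩ : Fin f₀)) % (f₀ - (r : ℕ)) = x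
          rw [cB, if_pos rfl]
          exact Nat.mod_eq_of_lt x.2
        rw [h1]
      · rw [hKN τ _ r' (hf2 _ r')]
        have h1 : g τ r' (Sum.inr (γ2 (r, ⟨x, hx⟩, ⟨y, hy⟩))) = y := by
          refine (hg1 τ r' (Sum.inr (r, ⟨x, hx⟩, ⟨y, hy⟩))).trans ?_
          apply Fin.ext
          change cB r' (r, (⟨x, hx⟩ : Fin f₀), (⟨y, hy⟩ : Fin f₀)) % (f₀ - (r' : ℕ)) = y
          rw [cB, if_neg hne']
          exact Nat.mod_eq_of_lt y.2
        rw [h1]
    · have hlt : ∀ i j : Fin u, i < j → (i : ℕ) / s = (j : ℕ) / s →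
          ∃ c r r', r ≠ r' ∧ K τ c r = Sum.inl i ∧ K τ c r' = Sum.inl j := by
        intro i j hij hg
        obtain ⟨c, hc⟩ := hpair i j hij hg
        refine ⟨Sum.inr c, r0, r1, ?_, hKs τ c r0 i ?_, hKs τ c r1 j ?_⟩
        · intro h
          have := congrArg Fin.val h
          simp only [r0, r1] at this
          omega
        · rw [hc, if_pos rfl]
        · rw [hc, if_neg (by simp [r1]), if_pos rfl]
      intro i j hij hg
      have hg' : (i : ℕ) / s = (j : ℕ) / s := congrArg Fin.val hg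
      rcases lt_or_gt_of_ne hij with h | h
      · exact hlt i j h hg'
      · obtain ⟨c, r, r', hr, hx, hy⟩ := hlt j i h hg'.symm
        exact ⟨c, r', r, hr.symm, hy, hx⟩
    · intro i r
      refine ⟨univ.image fun t : Fin T => ⟨cA T u (i, t) % (f₀ - (r : ℕ)),
        Nat.mod_lt _ (hfpos r)⟩, ?_, ?_⟩
      · rw [card_image_of_injective, card_univ, Fintype.card_fin]
        intro t t' h
        have h1 : ((i : ℕ) * T + t) % (f₀ - (r : ℕ)) = ((i : ℕ) * T + t') % (f₀ - (r : ℕ)) :=
          congrArg Fin.val h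
        have h2 : (t : ℕ) ≡ t' [MOD f₀ - (r : ℕ)] :=
          Nat.ModEq.add_left_cancel' ((i : ℕ) * T) h1
        have hTf : T ≤ f₀ - (r : ℕ) := by have := r.2; omega
        exact Fin.ext (Nat.ModEq.eq_of_lt_of_lt h2 (lt_of_lt_of_le t.2 hTf)
          (lt_of_lt_of_le t'.2 hTf))
      · intro j hj
        obtain ⟨t, _, rfl⟩ := mem_image.1 hj
        refine ⟨Sum.inr (δ r (i, t)), ro r, r, hro r, hKs τ _ _ i (hδs r (i, t)), ?_⟩
        rw [hKN τ _ r (hδn r (i, t))]
        have h1 := hg1 τ r (Sum.inl (i, t))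
        exact congrArg (fun z => (Sum.inr ⟨r, z⟩ : Lt u m (fun r => f₀ - (r : ℕ)))) h1
    · rintro x y ⟨c, r, r', hr, rfl, rfl⟩
      exact hσ c r r' hr

end Vale.Agent.P181.RG.H467
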