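import Vale.Agent.P181.RG.Defs

set_option autoImplicit false

/-!
# P181, RG: [DES] in two halves

`DesA` (the pattern of the free letters), then the class letters are put in by [EXT] and [PEAK].
-/

namespace Vale.Agent.P181.RG

open Finset

/-- The pattern of the free letters in the columns which do not depend on the permutation. -/
def Pat (u m D R k f₀ T s : ℕ) (e : Fin u → ℕ) : Prop :=
  ∃ fr : Fin R → Fin m → Option (Fin u),
    (∀ c, Thin (fr c)) ∧
    (∀ i, 2 * D + ∑ c, (univ.filter fun r => fr c r = some i).card = e i) ∧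
    (∀ (τ : Equiv.Perm (Fin u)) (r : Fin m),
      (univ.filter fun p : Fin u × Fin (2 * D) => (r : ℕ) ≠ al D (τ p.1) p.2).card +
        (univ.filter fun c => fr c r = none).card = (f₀ - r) * k) ∧
    (∀ i j : Fin u, i < j → (i : ℕ) / s = (j : ℕ) / s → ∃ c, ∀ r : Fin m,
      fr c r = if (r : ℕ) = 0 then some i else if (r : ℕ) = 1 then some j else none) ∧
    (∃ γ : Fin u × Fin T → Fin R, Function.Injective γ ∧
      ∀ p (r : Fin m), fr (γ p) r = if (r : ℕ) = 0 then some p.1 else none) ∧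
    (∃ γ : Fin u × Fin T → Fin R, Function.Injective γ ∧
      ∀ p (r : Fin m), fr (γ p) r = if (r : ℕ) = 1 then some p.1 else none) ∧
    ∃ γ : Fin m × Fin f₀ × Fin f₀ → Fin R, Function.Injective γ ∧ ∀ p r, fr (γ p) r = none

/-- **[DES-a]** -/
def DesA : Prop :=
  ∀ (u m D R k f₀ F₀ T s : ℕ) (e : Fin u → ℕ), 3 ≤ m → 1 ≤ u → 1 ≤ s → u ≤ (D + 1) ^ 2 →
    u * (2 * D) + R = f₀ * k + F₀ →
    2 * ∑ i, e i = 2 * (m * F₀) + k * (m * (m - 1)) →
    (∀ i, 2 * D + s + 2 * T ≤ e i) →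
    u * (2 * D + s + T) ≤ F₀ →
    m * f₀ ^ 2 + m * F₀ + k * m ^ 2 ≤ f₀ * k →
    T + m ≤ f₀ →
    Pat u m D R k f₀ T s e

end Vale.Agent.P181.RG
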